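import Crest.Agent.X212.Ker54.Flow
import Crest.Agent.X212.An.Strat

/-! Symmetries bound the index of a regular solution; if they exhaust it, solutions nearby are
unique modulo all equivalences, also for perturbations nearby. -/

set_option autoImplicit false
set_option linter.unusedSectionVars false
noncomputable section
open scoped Manifold ContDiff Topology InnerProductSpace
open MeasureTheory Set Function Filter

namespace Crest.Agent.X212.Ker54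
open An An.Pre Sob92 Prm93 Mod61 Eqv71 Nk89 Slc61
open Grp76 (Nice GA PropAt gmE gaM hy1 hs_iff)
open Wz78 (nab)

/-- orbits of the Sobolev gauge group are tangent to its infinitesimal action -/
theorem ga_range {R B S C L L' H Z : Type} [NormedAddCommGroup R] [NormedSpace ℝ R]
    [NormedAddCommGroup B] [NormedSpace ℝ B] [NormedAddCommGroup S] [NormedSpace ℝ S]
    [NormedAddCommGroup C] [NormedSpace ℝ C] [NormedAddCommGroup L] [NormedSpace ℝ L]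
    [NormedAddCommGroup L'] [NormedSpace ℝ L'] [NormedAddCommGroup H] [NormedSpace ℝ H]
    [NormedAddCommGroup Z] [NormedSpace ℝ Z] [CompleteSpace R] [CompleteSpace L]
    (D : GA R B S C L) {x : C} {K : R →L[ℝ] Z} (h : D.Est x x K) (hi : Injective (D.d x))
    (hs : ∀ g : D.Gr, g • x = x → ∀ y : C, g • y = y) (Q : SliceData D.Gr L' H x) (ξ : L') :
    Q.d ξ ∈ range (D.d x) := by
  have hp := h.propAt
  obtain ⟨hK, -, c, hc⟩ := h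
  let N : C →L[ℝ] B × S := (-D.pa).prod D.ps
  have hN : ∀ η, D.T x x (D.j η) = N (D.d x η) := fun η =>
    Prod.ext (by simp [N, D.pa_d, D.T_apply]) (by simp [N, D.ps_d, D.T_apply])
  have he : Fred93.Est (D.d x) (K ∘L D.j) (‖D.q‖ * (|c| * (‖N‖ + 1))) := fun η => by
    have h1 := D.q.le_opNorm (D.j η)
    have h2 := (hc (D.j η)).trans (mul_le_mul_of_nonneg_right (le_abs_self c) (by positivity))
    have h3 := N.le_opNorm (D.d x η)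
    rw [D.q_j] at h1
    rw [hN] at h2
    rw [mul_assoc, mul_assoc, ContinuousLinearMap.comp_apply]
    refine h1.trans (mul_le_mul_of_nonneg_left (h2.trans (mul_le_mul_of_nonneg_left ?_
      (abs_nonneg c))) (norm_nonneg _))
    nlinarith [norm_nonneg (D.d x η), mul_nonneg (norm_nonneg N) (norm_nonneg (K (D.j η)))]
  obtain ⟨c', c0, hc'⟩ := he.bound_of_inj (hK.comp_clm D.j) hi
  have h1 := HasFDerivAt.comp (f := fun η : L => (η, x)) 0 (D.hasStrict_act x).hasFDerivAt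
    (hasFDerivAt_prodMk_left (𝕜 := ℝ) (0 : L) x)
  exact range_le Q (h1.congr_fderiv (by ext; simp)) D.e_zero (D.tame hp hs) c0 hc' ξ

/-- `orb_abs` for a family of perturbations -/
theorem orb_q {C Y L W : Type} [NormedAddCommGroup C] [NormedSpace ℝ C] [NormedAddCommGroup Y]
    [NormedSpace ℝ Y] [NormedAddCommGroup L] [NormedSpace ℝ L] [CompleteSpace C] [CompleteSpace Y]
    [CompleteSpace L] {x₀ : C} {S : L × C → C} {Λ : L →L[ℝ] C}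
    (hS : HasStrictFDerivAt S (Λ.coprod (.id ℝ C)) (0, x₀)) (h0 : S (0, x₀) = x₀)
    {F : (W →₀ ℝ) → C → Y} {F0 : C → Y} {τ : W → C → Y}
    (hF : ∀ q v, F q v = F0 v + q.sum fun w c => c • τ w v) {q : W →₀ ℝ}
    (h1 : ContDiffAt ℝ ∞ (F q) x₀) (h2 : ∀ w, ContDiffAt ℝ ∞ (τ w) x₀)
    (hs : Surjective (fderiv ℝ (F q) x₀)) (hz : ∀ a, fderiv ℝ (F q) x₀ (Λ a) = 0) (π : C →L[ℝ] L)
    (hπ : ∀ a, π (Λ a) = a) (hk : ∀ v, fderiv ℝ (F q) x₀ v = 0 → v ∈ range Λ) {α : Type}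
    {l : Filter α} {qs : α → W →₀ ℝ} (hq : St.Cv l qs q) :
    ∃ N ∈ 𝓝 x₀, ∃ a : C → L, ∀ᶠ i in l, ∀ w ∈ N, ∀ w' ∈ N,
      F (qs i) (S (a w, w)) = F (qs i) (S (a w', w')) → S (a w, w) = S (a w', w') := by
  obtain ⟨J, hJ, hq⟩ := hq
  let Ψ : C × (J → ℝ) → Y := fun z => F q z.1 + ∑ w : J, z.2 w • τ w z.1
  have hΨ : ContDiffAt ℝ ∞ Ψ (x₀, 0) := (h1.comp _ contDiffAt_fst).add (ContDiffAt.sum fun w _ =>
    ((contDiff_apply ℝ ℝ w).comp contDiff_snd).contDiffAt.smul ((h2 w).comp _ contDiffAt_fst))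
  have hd : ∀ v, fderiv ℝ Ψ (x₀, 0) (v, 0) = fderiv ℝ (F q) x₀ v := fun v => by
    have h3 := HasFDerivAt.comp (f := fun v : C => (v, (0 : J → ℝ))) x₀
      (hΨ.differentiableAt (by simp)).hasFDerivAt (hasFDerivAt_prodMk_left (𝕜 := ℝ) x₀ 0)
    rw [show Ψ ∘ (fun v : C => (v, (0 : J → ℝ))) = F q from funext fun v => by simp [Ψ]] at h3
    rw [h3.fderiv]; rfl
  have q1 : ∀ i v, Ψ (v, fun w => qs i w - q w) = F (qs i) v := fun i v => by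
    have : q + Fin93.ext0 J (fun w => qs i w - q w) = qs i := by
      ext w
      by_cases hw : w ∈ J
      · rw [Finsupp.add_apply, Fin93.ext0_mem _ ⟨w, hw⟩, add_sub_cancel]
      · rw [Finsupp.add_apply, Fin93.ext0_not_mem _ hw, add_zero, hJ i w hw]
    rw [← this, hF, Finsupp.sum_add_index' (h := fun w c => c • τ w v) (fun _ => zero_smul _ _)
      (fun _ _ _ => add_smul _ _ _), ← add_assoc, ← hF, Fin93.ext0_sum, this]
  have q2 : Tendsto (fun i (w : J) => qs i w - q w) l (𝓝 0) :=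
    tendsto_pi_nhds.2 fun w => tendsto_sub_nhds_zero_iff.2 (hq w)
  obtain ⟨N, hN, N', hN', b, hb⟩ := orb_abs hS h0 (hΨ.hasStrictFDerivAt (by simp))
    (fun f => (hs f).imp fun v e => (hd v).trans e) (fun p => (hd _).trans (hz p)) π hπ
    fun v e => hk v ((hd v).symm.trans e)
  exact ⟨N, hN, b, (q2.eventually hN').mono fun i hi w a w' a' e =>
    hb w a w' a' _ hi (by rw [q1, q1, e])⟩

variable {E : Type} [NormedAddCommGroup E] [NormedSpace ℝ E] [FiniteDimensional ℝ E]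
  [MeasurableSpace E] [BorelSpace E]
  {HM : Type} [TopologicalSpace HM] {I : ModelWithCorners ℝ E HM} [I.Boundaryless]
  {M : Type} [TopologicalSpace M] [ChartedSpace HM M] [IsManifold I ∞ M]
  [MeasurableSpace M] [T2Space M] [BorelSpace M] [SecondCountableTopology M]
  {ι : Type} [Fintype ι] {lam : Type} [Fintype lam]
  {T : Type} [NormedAddCommGroup T] [NormedSpace ℝ T]
  {𝔉 : Fam I M ι lam T} (h : 𝔉.OK) {o o' o'' : Ref 𝔉} {r n m k : ℕ} {W : Type}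

/-- the orbit of `y` is tangent to the action of the Sobolev sections of `g` -/
def Tan {Al : (M → CL o.m.V o.m.V) → Circle → Prop} (Γ : GrpM o r k Al) (y : Pnt o r) : Prop :=
  Γ.Free (y.pt k) → ∀ (D : SliceData Γ.G Γ.L Γ.H (y.pt k)) (ξ : Γ.L),
    ∃ η : 𝔉.F0.H (k + 2) o.Pg, In0 k y (𝔉.F0.val _ _ η) 0 (D.d ξ)

/-- equivalent in some gauge and phase -/
def EqT (y : Pnt o r) (y' : Pnt o' r) : Prop := y'.t = y.t ∧ ∃ w ζ, y.Eq y' w ζ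

theorem zr_of {Al : (M → CL o.m.V o'.m.V) → Circle → Prop} {τ : T → PtX M ι lam r n m}
    (hn : NatP o o' Al τ) {y : Pnt o r} {y' : Pnt o' r} {w : M → CL o.m.V o'.m.V} {c : Circle}
    (ht : y'.t = y.t) (al : Al w c) (e : y.Eq y' w c) (z : (τ y.t).Zr y.cfg 𝔉.Om 𝔉.Om') :
    (τ y'.t).Zr y'.cfg 𝔉.Om 𝔉.Om' := by
  obtain ⟨h1, h2, h3, h4⟩ := hn y y' w c ht al e
  refine ⟨fun x hx => ?_, fun x hx => PiLp.ext fun s => ?_, funext fun i => ?_, h4.trans z.R⟩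
  · rw [h1 x hx, z.D x hx]; exact (congrArg _ (map_zero (w x))).trans (cs_zero _ _)
  · rw [h2 x hx, z.C x hx]; exact map_zero (cj (w x))
  · rw [h3, z.S]; exact mul_zero _

include h

theorem EqT.symm {y : Pnt o r} {y' : Pnt o' r} (a : EqT y y') : EqT y' y :=
  let ⟨ht, _, _, e⟩ := a; ⟨ht.symm, _, _, e.symm h ht⟩

theorem EqT.trans {y : Pnt o r} {y' : Pnt o' r} {y'' : Pnt o'' r} (a : EqT y y') (b : EqT y' y'') :
    EqT y y'' :=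
  let ⟨ht, _, _, e⟩ := a; let ⟨ht', _, _, e'⟩ := b; ⟨ht'.trans ht, _, _, e.trans h ht e' ht'⟩

theorem in0_d [o.B0] (hk : 7 ≤ k) (y : Pnt o r) (η : 𝔉.F0.H (k + 2) o.Pg) :
    In0 k y (𝔉.F0.val _ _ η) 0 ((gaM o h hk r).d (y.pt k) η) := by
  have H := hy1 o h hk
  refine ⟨fun x a => (H.val_d1 (y.pt k) η x a).trans ?_, fun x => (H.val_d2 (y.pt k) η x).trans ?_,
    (H.d_z (y.pt k) η).trans (by simp; rfl)⟩
  · unfold Grp76.QB.conn
    rw [n0, o.A_eq, y.val_α (by omega)]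
  · rw [Grp76.QB.spin, y.val_φ (by omega), zero_smul, add_zero]

theorem tan_gmE [o.B0] [CompleteSpace T] (hk : 7 ≤ k) (hy : Hdy 𝔉.F0) (y : Pnt o r) :
    Tan (gmE o h hk r hy) y := fun hf D ξ => by
  obtain ⟨_, he⟩ := (hy1 o h hk).est (Z := Grp76.Zr T r) hy (v := y.pt k) (w := y.pt k)
    (Grp76.nice_pt h hk y).1.sm (Grp76.nice_pt h hk y).1.sm
  obtain ⟨η, e⟩ := ga_range (gaM o h hk r) he (Grp76.d_inj _ h hf) hf D ξ
  exact ⟨η, e ▸ in0_d h hk y η⟩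

theorem nice_n0 {y : Pnt o r} {ξ : M → o.m.A} {c : ℝ} (a : Inf y ξ c) (i : ι) :
    Nice 𝔉.F0.toPre (n0 y ξ i) := by
  rw [show n0 y ξ i = _ from funext fun x =>
    n0_eq h (y := y) ((Grp76.Pg_iff h x _).1 (a.mem x)).1 i]
  exact Nice.sum _ fun b => (a.A b).bil (ContinuousLinearMap.lsmul ℝ ℝ) ((h.sSi i b).cb _ y.ht)

theorem md_val (hk : 4 ≤ k) (η : 𝔉.F0.H (k + 1) o.Pg) :
    MDifferentiable I 𝓘(ℝ, o.m.A) (𝔉.F0.val _ _ η) := (val_DH h.sup hk η).1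

/-- regularity of gauge parameters -/
theorem hs_of_n0 (hk : 4 ≤ k) (y : Pnt o r) (η : 𝔉.F0.H (k + 1) o.Pg)
    (hn : ∀ a, Nice 𝔉.F0.toPre (n0 y (𝔉.F0.val _ _ η) a)) :
    𝔉.F0.val _ _ η ∈ Hs 𝔉.F0.toPre o.Pg := by
  have cA : ∀ a, 𝔉.F0.Cb fun x => -adc (o.A y.t a x + opL (y.α x a)) := fun a =>
    Cb_neg (Cb_clm Wz78.adcL (Cb_add (o.cAt _ a) (Cb_clm (opL ∘L Grp76.pj o.m.A a) (y.cα h))))
  have e : ∀ a x, 𝔉.F0.D a (𝔉.F0.val _ _ η) x = (-adc (o.A y.t a x + opL (y.α x a)))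
      (𝔉.F0.val _ _ η x) + n0 y (𝔉.F0.val _ _ η) a x := fun a x => by
    rw [n0, nab, _root_.neg_apply, D_def]; abel
  have hs := Grp76.sm_of_lin (md_val h hk η) (fun a => Cb.sm (cA a)) (fun a => (hn a).sm) e
  exact (hs_iff h).2 ⟨Grp76.nice_of_fl h.tame.choose_spec hs (Grp76.fl_of_lin hs
    (Is.val h.sup (by omega) η).memLp cA hn e), val_proj h.sup (by omega) η⟩

/-- a symmetry which is tangent to the orbit is trivial -/
theorem Sy.eq_zero (hk : 3 ≤ k) {y : Pnt o r} {K : Type} [AddCommGroup K] [Module ℝ K]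
    {ξ : K →ₗ[ℝ] M → o.m.A} {c : K →ₗ[ℝ] ℝ} (sy : Sy y ξ c) {s : K} {v : o.C r k}
    (a : In0 k y (ξ s) (c s) v) {η : 𝔉.F0.H (k + 2) o.Pg} (b : In0 k y (𝔉.F0.val _ _ η) 0 v) :
    s = 0 := by
  have e : ∀ i x, n0 y (𝔉.F0.val _ _ η) i x = n0 y (ξ s) i x := fun i x =>
    neg_inj.1 ((b.α x i).symm.trans (a.α x i))
  have hη := hs_of_n0 h (by omega) y η fun i => funext (e i) ▸ nice_n0 h (sy.inf s) i
  have d1 := (Cb.sm (sy.inf s).cb).mdifferentiable (by simp)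
  have d2 := md_val h (k := k + 1) (by omega) η
  refine sy.ind s _ hη (fun i x => ?_) (fun x => ?_) ?_
  · generalize 𝔉.F0.val _ _ η = η' at e d2 hη ⊢
    have m : (ξ s - η') x ∈ o.m.gS x := sub_mem ((Grp76.Pg_iff h x _).1 ((sy.inf s).mem x)).1
      ((Grp76.Pg_iff h x _).1 (Hs_proj h.sup hη x)).1
    rw [nab_W h m]
    refine Finset.sum_eq_zero fun j _ => smul_eq_zero_of_right _ ?_
    have := n0_add (y := y) (ξ := ξ s - η') ((d1 x).sub (d2 x)) (d2 x) j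
    rw [sub_add_cancel, e] at this
    exact add_eq_right.1 this.symm
  · have := (a.φ x).symm.trans (b.φ x)
    rw [zero_smul, add_zero] at this
    rw [map_sub, _root_.sub_apply, ← this]; abel
  · have := congrArg Prod.fst (a.z.symm.trans b.z)
    simp only [Complex.ofReal_zero, mul_zero, zero_mul, zero_smul, smul_eq_zero, mul_eq_zero,
      Complex.I_ne_zero, two_ne_zero, or_false, false_or] at this
    exact smul_eq_zero.2 this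

omit h

variable [CompleteSpace T] {Θ : Th 𝔉 r n m W} {Adm : (W →₀ ℝ) → Prop} (H : Θ.OK Adm)

/-- zeros near `x₀` for perturbations near `q` are unique modulo all equivalences -/
def Orb (q : W →₀ ℝ) (x₀ : Θ.X) : Prop := ∀ (α : Type) (l : Filter α) (qs : α → W →₀ ℝ)
  (u u' : α → Θ.X), St.Cv l qs q → Tendsto u l (H.Q.Near x₀) → Tendsto u' l (H.Q.Near x₀) →
  ∀ᶠ i in l, Θ.Zr (qs i) (u i) → Θ.Zr (qs i) (u' i) → EqT (u i).2 (u' i).2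

theorem Orb.isol {q : W →₀ ℝ} {x₀ : Θ.X} (a : Orb H q x₀) (z : Θ.Zr q x₀) :
    ∀ᶠ x in H.Q.Near x₀, Θ.Zr q x → EqT x₀.2 x.2 :=
  (a _ _ (fun _ => q) (fun _ => x₀) id ⟨∅, fun _ _ _ => rfl, fun _ => tendsto_const_nhds⟩
    (H.Q.tendsto_near_of (fun _ => x₀.2) tendsto_const_nhds
      (Eventually.of_forall fun _ => H.Q.eqv.refl _)) tendsto_id).mono fun _ e => e z

include H in
theorem zr_eqv {q : W →₀ ℝ} {x x' : Θ.X} (e : Θ.Eqv x x') (z : Θ.Zr q x) : Θ.Zr q x' :=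
  let ⟨ht, _, _, al, e⟩ := e; zr_of (H.nat_tot _ _ q) ht al e z

/-- **KER + ORB** for any theory whose orbits are tangent to the Sobolev sections of `g` -/
theorem ker_th (ne : 𝔉.Nat Θ.e) (nτ : ∀ w, 𝔉.Nat (Θ.τ w)) {q : W →₀ ℝ} {a : Θ.O}
    {y : Pnt (Θ.ref a) r} (ha : Adm q) (hx : H.Q.Sol q ⟨a, y⟩) (hr : H.Q.Reg q ⟨a, y⟩)
    (tan : Tan (Θ.Γ a) y) {K : Type} [NormedAddCommGroup K] [NormedSpace ℝ K]
    [FiniteDimensional ℝ K] {ξ : K →ₗ[ℝ] M → (Θ.ref a).m.A} {c : K →ₗ[ℝ] ℝ} (sy : Sy y ξ c)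
    (mb : ∀ s, Mb _ (ξ s)) :
    (∀ s v, In0 Θ.k y (ξ s) (c s) v → fderiv ℝ (Θ.F a q) (y.pt Θ.k) v = 0) ∧
    (Module.finrank ℝ K : ℤ) ≤ Θ.d ∧ ((Module.finrank ℝ K : ℤ) = Θ.d → Orb H q ⟨a, y⟩ ∧
      ∀ v, fderiv ℝ (Θ.F a q) (y.pt Θ.k) v = 0 → ∃ s, ∃ η : 𝔉.F0.H (Θ.k + 2) (Θ.ref a).Pg,
        In0 Θ.k y (ξ s + 𝔉.F0.val _ _ η) (c s) v ∧ (Nice 𝔉.F0.toPre (𝔉.F0.val _ _ v.1) →
          𝔉.F0.val _ _ η ∈ Hs 𝔉.F0.toPre (Θ.ref a).Pg)) := by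
  have h := H.fam
  obtain ⟨i0, z0⟩ := (H.sol_iff q _).1 hx
  obtain ⟨D, -, -, -, -, hF, -⟩ := H.slc_of ha hx
  replace tan := tan (((Θ.Γ a).free_iff h H.k3).2 i0.1) D
  obtain ⟨S, V, h0, h1, h2, h3⟩ := exists_orb h sy.inf mb H.k3
  have hS := joint_der D h1 (h0 _)
  have e0 : D.e (0 : (Θ.Γ a).L × K).1 • S ((0 : (Θ.Γ a).L × K).2, y.pt Θ.k) = y.pt Θ.k := by
    rw [Prod.fst_zero, Prod.snd_zero, h0, D.e_zero, one_smul]
  have hz : ∀ q' (y' : Pnt (Θ.ref a) r) (g : (Θ.Γ a).G) s, Θ.Zr q' ⟨a, y'⟩ →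
      Θ.F a q' (g • S (s, y'.pt Θ.k)) = 0 := fun q' y' g s z => by
    obtain ⟨y₁, e1, e2, e3⟩ := h3 s y'
    rw [← e1]
    exact H.ax.F_smul (o := a) q' g y₁.mem_U ((H.zr_iff q' ⟨a, y₁⟩).2 (zr_of (Al := fun _ _ => True)
      (Θ.tot_mem (natS _ _ n m _) (ne.natP h _ _ _) (fun w => (nτ w).natP h _ _ _) q') e2 trivial
      e3 z))
  have hU := (isOpen_U h).mem_nhds (y.mem_U (k := Θ.k))
  have hc := (H.repF a q).1.contDiffAt hU
  have h4 : ∀ p, fderiv ℝ (Θ.F a q) (y.pt Θ.k) (D.d.coprod V p) = 0 :=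
    comp_zero hS e0 (hc.differentiableAt (by simp)).hasFDerivAt fun p => hz q y _ _ z0
  obtain ⟨h5, h6⟩ := lin_le D.bij hr hF h4 fun s ξ' e => by
    obtain ⟨η, b⟩ := tan ξ'
    exact Sy.eq_zero h H.k3 sy (h2 s) (e ▸ b)
  refine ⟨fun s v b => ?_, h5, fun e => ?_⟩
  · rw [b.unique h H.k3 (h2 s), ← h4 (0, s), ContinuousLinearMap.coprod_apply, map_zero, zero_add]
  obtain ⟨⟨π, hπ⟩, h7⟩ := h6 e
  refine ⟨fun α l qs u u' hq hu hu' => ?_, fun v hv => ?_⟩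
  · obtain ⟨N, hN, b, hb⟩ := orb_q hS e0 (F := Θ.F a) (fun _ _ => rfl) hc
      (fun w => (H.repτ a w).1.contDiffAt hU) hr h4 π hπ h7 hq
    filter_upwards [hb, H.Q.tendsto_near.1 hu N hN, H.Q.tendsto_near.1 hu' N hN]
      with i a1 ⟨y₁, a2, a3⟩ ⟨y₂, a4, a5⟩ z1 z2
    have a6 := a1 _ a2 _ a4
      ((hz _ y₁ _ _ (zr_eqv H a3 z1)).trans (hz _ y₂ _ _ (zr_eqv H a5 z2)).symm)
    obtain ⟨w₁, b1, b2, b3⟩ := h3 (b (y₁.pt Θ.k)).2 y₁
    obtain ⟨w₂, b4, b5, b6⟩ := h3 (b (y₂.pt Θ.k)).2 y₂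
    have a7 : ((D.e (b (y₂.pt Θ.k)).1)⁻¹ * D.e (b (y₁.pt Θ.k)).1) • w₁.pt Θ.k = w₂.pt Θ.k := by
      rw [mul_smul, inv_smul_eq_iff, b1, b4]; exact a6
    obtain ⟨t1, _, _, -, c1⟩ := a3
    obtain ⟨t2, _, _, -, c2⟩ := a5
    exact (((EqT.trans h ⟨t1, _, _, c1⟩ ⟨b2, _, _, b3⟩).trans h ⟨(Θ.Γ a).t_eq a7, _, _,
      (Θ.Γ a).eq_of_smul h H.k3 a7⟩).trans h (EqT.symm h ⟨b5, _, _, b6⟩)).trans h
      (EqT.symm h ⟨t2, _, _, c2⟩)
  · obtain ⟨⟨ξ', s⟩, ev⟩ := h7 v hv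
    obtain ⟨η, b⟩ := tan ξ'
    have d1 := (Cb.sm (sy.inf s).cb).mdifferentiable (by simp)
    have d2 := md_val h (k := Θ.k + 1) (by have := H.hk; omega) η
    have b1 := (h2 s).add b d1 d2
    rw [add_zero, add_comm (V s), show D.d ξ' + V s = v from ev] at b1
    refine ⟨s, η, b1, fun hv => hs_of_n0 h (by have := H.hk; omega) y η fun i => ?_⟩
    have e1 : n0 y (𝔉.F0.val _ _ η) i = fun x => (-Grp76.pj _ i) (𝔉.F0.val _ _ v.1 x) -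
        n0 y (ξ s) i x := funext fun x => by
      rw [_root_.neg_apply, Grp76.pj_apply, b1.α, n0_add (d1 x) (d2 x), neg_neg,
        add_sub_cancel_left]
    rw [e1]
    exact (hv.clm (-Grp76.pj _ i)).sub (nice_n0 h (sy.inf s) i)

variable (o) in
/-- `Nk89.KerStmt` with the corrected kernel clause and with `Orb` -/
def KerStmt' : Prop := ∀ [o.B0] (h : 𝔉.OK) (hy : Hdy 𝔉.F0) (r n m k : ℕ) (hk : 7 ≤ k)
  (W : Type) (e : T → PtX M ι lam r n m) (τ : W → T → PtX M ι lam r n m) (P : Pnt o r → Prop)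
  (d : ℤ) (Adm : (W →₀ ℝ) → Prop) (H : (thE (gmE o h hk r hy) e τ P d).OK Adm),
  𝔉.Nat e → (∀ w, 𝔉.Nat (τ w)) → ∀ (q : W →₀ ℝ) (y : Pnt o r), Adm q → H.Q.Sol q ⟨(), y⟩ →
  H.Q.Reg q ⟨(), y⟩ → ∀ (K : Type) [NormedAddCommGroup K] [NormedSpace ℝ K]
  [FiniteDimensional ℝ K] (ξ : K →ₗ[ℝ] M → o.m.A) (c : K →ₗ[ℝ] ℝ), Sy y ξ c →
  (Module.finrank ℝ K : ℤ) ≤ d ∧ ((Module.finrank ℝ K : ℤ) = d →
    (∀ᶠ x in H.Q.Near ⟨(), y⟩, H.Q.Sol q x → x.2.t = y.t ∧ ∃ w ζ, y.Eq x.2 w ζ) ∧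
    Orb H q ⟨(), y⟩ ∧
    ∀ v : o.C r k, fderiv ℝ ((thE (gmE o h hk r hy) e τ P d).F () q) (y.pt k) v = 0 →
      ∃ s, ∃ η : 𝔉.F0.H (k + 2) o.Pg, IsInf k y (ξ s + 𝔉.F0.val _ _ η) (c s) v ∧
        (Nice 𝔉.F0.toPre (𝔉.F0.val _ _ v.1) → 𝔉.F0.val _ _ η ∈ Hs 𝔉.F0.toPre o.Pg))

theorem ker' : KerStmt' o := by
  intro _ h hy r n m k hk W e τ P d Adm H ne nτ q y ha hx hr K _ _ _ ξ c sy
  obtain ⟨-, h1, h2⟩ := ker_th H ne nτ ha hx hr (tan_gmE h hk hy y) sy fun s => mb_B0 _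
  refine ⟨h1, fun e => ?_⟩
  obtain ⟨h3, h4⟩ := h2 e
  refine ⟨(h3.isol H ((H.sol_iff q _).1 hx).2).mono fun x a z => a ((H.sol_iff q x).1 z).2, h3,
    fun v hv => ?_⟩
  obtain ⟨s, η, h5, h6⟩ := h4 v hv
  exact ⟨s, η, h5.isInf h fun x => add_mem ((Grp76.Pg_iff h x _).1 ((sy.inf s).mem x)).1
    ((Grp76.Pg_iff h x _).1 (val_proj h.sup (k := k + 2) (by omega) η x)).1, h6⟩

end Crest.Agent.X212.Ker54
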