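import Crest.Agent.X212.Slc61.Slice
import Crest.Agent.X212.Fred93.Basic

/-! Symmetries of a regular zero: format free lemmas (orbits, slices, affine flows). -/

set_option autoImplicit false
set_option linter.unusedSectionVars false
noncomputable section
open Set Filter Topology Function

namespace Crest.Agent.X212.Ker54
open Slc61 Fred93

variable {G : Type*} [Group G] {C L L' H Y K : Type*} [NormedAddCommGroup C] [NormedSpace ℝ C]
  [NormedAddCommGroup L] [NormedSpace ℝ L] [NormedAddCommGroup L'] [NormedSpace ℝ L']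
  [NormedAddCommGroup H] [NormedSpace ℝ H] [NormedAddCommGroup Y] [NormedSpace ℝ Y]
  [NormedAddCommGroup K] [NormedSpace ℝ K] [MulAction G C] {x₀ : C}

theorem orbit_der (D : SliceData G L H x₀) : HasStrictFDerivAt (fun ξ : L => D.e ξ • x₀) D.d 0 := by
  have h2 : HasStrictFDerivAt (fun ξ : L => ((ξ, x₀) : L × C)) (ContinuousLinearMap.inl ℝ L C) 0 :=
    ((hasStrictFDerivAt_id (0 : L)).prodMk (hasStrictFDerivAt_const x₀ 0)).congr_fderiv (by
      ext <;> simp)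
  have h3 := D.act.comp (0 : L) h2
  exact h3.congr_fderiv (by ext; simp)

/-- the tangent space of an orbit does not depend on the chart -/
theorem range_le [CompleteSpace L'] (D : SliceData G L H x₀) {e : L' → G} {d : L' →L[ℝ] C}
    (he : HasFDerivAt (fun η => e η • x₀) d 0) (h0 : e 0 = 1) (ht : Tame e x₀) {c : ℝ} (c0 : 0 < c)
    (hc : ∀ η, ‖η‖ ≤ c * ‖d η‖) (ξ : L) : D.d ξ ∈ range d := by
  have hcl : IsClosed (range d) :=
    (d.isUniformEmbedding_of_bound (K := ⟨c, c0.le⟩) hc).isClosedEmbedding.isClosed_range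
  refine hcl.closure_subset (Metric.mem_closure_iff.2 fun ε ε0 => ?_)
  set a := ‖D.d ξ‖ + 1 with ha
  have a0 : 0 < a := by positivity
  set δ := min (1 / (2 * c)) (min 1 (ε / (2 * (1 + 2 * c * a)))) with hδ
  have δ0 : 0 < δ := by positivity
  have δ1 : δ ≤ 1 / (2 * c) := min_le_left _ _
  have δ2 : δ ≤ 1 := (min_le_right _ _).trans (min_le_left _ _)
  have δ3 : δ ≤ ε / (2 * (1 + 2 * c * a)) := (min_le_right _ _).trans (min_le_right _ _)
  obtain ⟨V, hV, h1⟩ := ht _ (he.isLittleO.def δ0)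
  have h2 : HasDerivAt (fun t : ℝ => D.e (t • ξ) • x₀) (D.d ξ) 0 := by
    have := HasFDerivAt.comp_hasDerivAt_of_eq (0 : ℝ) (orbit_der D).hasFDerivAt
      ((hasDerivAt_id (0 : ℝ)).smul_const ξ) (by simp)
    rwa [one_smul] at this
  have h3 : ∀ᶠ t in 𝓝 (0 : ℝ), D.e (t • ξ) • x₀ ∈ V :=
    h2.continuousAt.eventually (by simpa [D.e_zero] using hV)
  obtain ⟨t, ⟨h4, h5⟩, t0⟩ := ((((h2.isLittleO.def δ0).and h3).filter_mono
    (nhdsWithin_le_nhds (s := Ioi 0))).and self_mem_nhdsWithin).exists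
  have t0 : 0 < t := t0
  obtain ⟨η, h6, h7⟩ := h1 x₀ (mem_of_mem_nhds hV) _ h5
  simp only [mem_ofPred_eq, h0, one_smul, sub_zero, zero_smul, D.e_zero, h7, Real.norm_eq_abs,
    abs_of_pos t0] at h4 h6
  set g := D.e (t • ξ) • x₀ - x₀
  have e1 : ‖g‖ ≤ t * a := by
    have := norm_le_norm_sub_add g (t • D.d ξ)
    rw [norm_smul, Real.norm_eq_abs, abs_of_pos t0] at this
    nlinarith
  have e2 : ‖η‖ ≤ 2 * c * (t * a) := by
    have h8 := norm_le_norm_sub_add (d η) g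
    rw [norm_sub_rev] at h8
    have h9 : c * δ ≤ 1 / 2 := by rw [le_div_iff₀ (by positivity)] at δ1; linarith
    have := hc η
    nlinarith [mul_le_mul_of_nonneg_left h8 c0.le, mul_le_mul_of_nonneg_left h6 c0.le,
      mul_le_mul_of_nonneg_left e1 c0.le, mul_le_mul_of_nonneg_right h9 (norm_nonneg η)]
  refine ⟨d (t⁻¹ • η), ⟨_, rfl⟩, ?_⟩
  have e3 : D.d ξ - d (t⁻¹ • η) = t⁻¹ • ((g - d η) - (g - t • D.d ξ)) := by
    rw [map_smul, sub_sub_sub_cancel_left, smul_sub, inv_smul_smul₀ t0.ne']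
  rw [dist_eq_norm, e3, norm_smul, Real.norm_eq_abs, abs_of_pos (inv_pos.2 t0),
    inv_mul_lt_iff₀ t0]
  have e4 : δ * (1 + 2 * c * a) ≤ ε / 2 := by
    rw [le_div_iff₀ (by positivity)] at δ3; linarith
  nlinarith [norm_sub_le (g - d η) (g - t • D.d ξ), mul_le_mul_of_nonneg_left e2 δ0.le,
    mul_le_mul_of_nonneg_left e4 t0.le, mul_pos t0 ε0]

/-- a family `S` of symmetries whose derivative is onto the kernel moves all zeros nearby, for
parameters nearby, into a slice in which they are unique -/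
theorem orb_abs {P : Type*} [NormedAddCommGroup P] [NormedSpace ℝ P] [CompleteSpace P]
    [CompleteSpace C] [CompleteSpace Y] [CompleteSpace L] {S : L × C → C} {Λ : L →L[ℝ] C}
    (hS : HasStrictFDerivAt S (Λ.coprod (.id ℝ C)) (0, x₀)) (h0 : S (0, x₀) = x₀) {Ψ : C × P → Y}
    {Ψ' : C × P →L[ℝ] Y} {p₀ : P} (hΨ : HasStrictFDerivAt Ψ Ψ' (x₀, p₀))
    (hs : ∀ f, ∃ v, Ψ' (v, 0) = f) (hz : ∀ a, Ψ' (Λ a, 0) = 0) (π : C →L[ℝ] L)
    (hπ : ∀ a, π (Λ a) = a) (hk : ∀ v, Ψ' (v, 0) = 0 → v ∈ range Λ) :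
    ∃ N ∈ 𝓝 x₀, ∃ N' ∈ 𝓝 p₀, ∃ a : C → L, ∀ w ∈ N, ∀ w' ∈ N, ∀ p ∈ N',
      Ψ (S (a w, w), p) = Ψ (S (a w', w'), p) → S (a w, w) = S (a w', w') := by
  let Φ : C × P →L[ℝ] (Y × L) × P :=
    (Ψ'.prod (π ∘L ContinuousLinearMap.fst ℝ C P)).prod (ContinuousLinearMap.snd ℝ C P)
  have hΦ : ∀ v p, Φ (v, p) = ((Ψ' (v, p), π v), p) := fun _ _ => rfl
  have hb : Bijective Φ := by
    refine ⟨(injective_iff_map_eq_zero _).2 fun ⟨v, p⟩ hv => ?_, fun ⟨⟨f, a⟩, p⟩ => ?_⟩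
    · obtain rfl : p = 0 := congrArg Prod.snd hv
      obtain ⟨a, rfl⟩ := hk v (congrArg (·.1.1) hv)
      rw [← hπ a, show π (Λ a) = 0 from congrArg (·.1.2) hv, map_zero]; rfl
    · obtain ⟨v, e⟩ := hs (f - Ψ' (0, p))
      refine ⟨(v + Λ (a - π v), p), ?_⟩
      rw [hΦ, map_add π, hπ, add_sub_cancel, show (v + Λ (a - π v), p) =
        (v, 0) + (Λ (a - π v), 0) + (0, p) by simp, map_add, map_add, e, hz, add_zero,
        sub_add_cancel]
  let A : (C × P) ≃L[ℝ] (Y × L) × P := ContinuousLinearEquiv.ofBijective Φ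
    (LinearMap.ker_eq_bot.2 hb.1) (LinearMap.range_eq_top.2 hb.2)
  have hA : HasStrictFDerivAt (fun z : C × P => ((Ψ z, π z.1), z.2)) (A : _ →L[ℝ] _) (x₀, p₀) :=
    (hΨ.prodMk (π ∘L ContinuousLinearMap.fst ℝ C P).hasStrictFDerivAt).prodMk hasStrictFDerivAt_snd
  obtain ⟨N1, hN1, N2, hN2, hN⟩ := mem_nhds_prod_iff.1 ((hA.toOpenPartialHomeomorph _
    ).open_source.mem_nhds hA.mem_toOpenPartialHomeomorph_source)
  let Θ : L × C →L[ℝ] L × C := (π ∘L Λ.coprod (.id ℝ C)).prod (ContinuousLinearMap.snd ℝ L C)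
  have hΘ : ∀ a v, Θ (a, v) = (a + π v, v) := fun a v => by simp [Θ, hπ]
  let B : (L × C) ≃L[ℝ] L × C := ContinuousLinearEquiv.ofBijective Θ
    (LinearMap.ker_eq_bot'.2 fun ⟨a, v⟩ e => by
      obtain rfl : v = 0 := congrArg Prod.snd e
      simpa using (hΘ a 0).symm.trans e)
    (LinearMap.range_eq_top.2 fun ⟨a, v⟩ => ⟨(a - π v, v), (hΘ _ _).trans (by simp)⟩)
  have hB : HasStrictFDerivAt (fun z : L × C => (π (S z), z.2)) (B : _ →L[ℝ] _) (0, x₀) :=
    (π.hasStrictFDerivAt.comp _ hS).prodMk hasStrictFDerivAt_snd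
  have h3 := image_mem_map (m := fun z : L × C => (π (S z), z.2))
    (hS.continuousAt.preimage_mem_nhds (by rw [h0]; exact hN1))
  rw [hB.map_nhds_eq_of_equiv, h0] at h3
  have h4 : ∀ w, ∃ a, (π x₀, w) ∈ (fun z : L × C => (π (S z), z.2)) '' (S ⁻¹' N1) →
      S (a, w) ∈ N1 ∧ π (S (a, w)) = π x₀ := fun w => by
    by_cases e : (π x₀, w) ∈ (fun z : L × C => (π (S z), z.2)) '' (S ⁻¹' N1)
    · obtain ⟨⟨a, v⟩, e1, e2⟩ := e
      obtain rfl : v = w := congrArg Prod.snd e2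
      exact ⟨a, fun _ => ⟨e1, congrArg Prod.fst e2⟩⟩
    · exact ⟨0, fun e' => (e e').elim⟩
  choose a ha using h4
  refine ⟨_, (Continuous.prodMk_right (π x₀)).continuousAt.preimage_mem_nhds h3, N2, hN2, a,
    fun w hw w' hw' p hp e => congrArg Prod.fst ((hA.toOpenPartialHomeomorph _).injOn
      (hN (mk_mem_prod (ha w hw).1 hp)) (hN (mk_mem_prod (ha w' hw').1 hp))
      (Prod.ext (Prod.ext e ((ha w hw).2.trans (ha w' hw').2.symm)) rfl))⟩

/-- **Symmetries bound the index.** -/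
theorem lin_le [CompleteSpace L] [CompleteSpace H] [FiniteDimensional ℝ K] {d : L →L[ℝ] C}
    {σ : C →L[ℝ] H} (hb : Bijective (σ.comp d)) {F' : C →L[ℝ] Y} (hs : Surjective F') {n : ℤ}
    (hn : Fr (F'.prod σ) n) {V : K →L[ℝ] C} (h1 : ∀ p, F' (d.coprod V p) = 0)
    (hi : ∀ s ξ, V s = d ξ → s = 0) :
    (Module.finrank ℝ K : ℤ) ≤ n ∧ ((Module.finrank ℝ K : ℤ) = n →
      (∃ π : C →L[ℝ] L × K, ∀ p, π (d.coprod V p) = p) ∧ ∀ v, F' v = 0 → v ∈ range (d.coprod V)) := by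
  have hd : ∀ ξ, F' (d ξ) = 0 := fun ξ => by simpa using h1 (ξ, 0)
  have hV : ∀ s, F' (V s) = 0 := fun s => by simpa using h1 (0, s)
  let A : L ≃L[ℝ] H := ContinuousLinearEquiv.ofBijective (σ.comp d)
    (LinearMap.ker_eq_bot.2 hb.1) (LinearMap.range_eq_top.2 hb.2)
  have hA : ∀ ξ, A.symm (σ (d ξ)) = ξ := A.symm_apply_apply
  have hA' : ∀ w, σ (d (A.symm w)) = w := A.apply_symm_apply
  let R : C →L[ℝ] C := .id ℝ C - d ∘L (A.symm : H →L[ℝ] L) ∘L σ
  have hR : ∀ v, R v = v - d (A.symm (σ v)) := fun _ => rfl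
  let N := (F'.prod σ).ker
  have : FiniteDimensional ℝ N := hn.1.finite_ker
  have hN : ∀ v, F' v = 0 → R v ∈ N := fun v hv => by
    change (F' (R v), σ (R v)) = 0
    rw [hR, map_sub, map_sub, hv, hd, hA', sub_self, sub_self]; rfl
  let j : K →ₗ[ℝ] N := (R ∘L V).toLinearMap.codRestrict N fun s => hN _ (hV s)
  have hj : Injective j := (injective_iff_map_eq_zero _).2 fun s e =>
    hi s _ (sub_eq_zero.1 (congrArg Subtype.val e))
  have hr := hn.finrank_ker ((surj_prod_iff (ContinuousLinearMap.ext hd) hb.2).2 hs)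
  refine ⟨hr ▸ Int.ofNat_le.2 (LinearMap.finrank_le_finrank_of_injective hj), fun e => ?_⟩
  have hj' : Surjective j := (LinearMap.injective_iff_surjective_of_finrank_eq_finrank
    (Int.ofNat_inj.1 (e.trans hr.symm))).1 hj
  refine ⟨?_, fun v hv => ?_⟩
  · obtain ⟨π, hπ⟩ := Submodule.ClosedComplemented.of_finiteDimensional N
    let J := (LinearEquiv.ofBijective j ⟨hj, hj'⟩).symm.toContinuousLinearEquiv
    let ℓ : C →L[ℝ] K := (J : N →L[ℝ] K) ∘L π ∘L R
    have l1 : ∀ s, ℓ (V s) = s := fun s => (congrArg J (hπ (j s))).trans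
      ((LinearEquiv.ofBijective j ⟨hj, hj'⟩).symm_apply_apply s)
    have l2 : ∀ ξ, ℓ (d ξ) = 0 := fun ξ => by
      change J (π (R (d ξ))) = 0
      rw [hR, hA, sub_self, map_zero, map_zero]
    exact ⟨(((A.symm : H →L[ℝ] L) ∘L σ) ∘L (.id ℝ C - V ∘L ℓ)).prod ℓ, fun p => by
      simp [l1, l2, hA]⟩
  · obtain ⟨s, e⟩ := hj' ⟨_, hN v hv⟩
    have e : V s - d (A.symm (σ (V s))) = v - d (A.symm (σ v)) := congrArg Subtype.val e
    exact ⟨(A.symm (σ v) - A.symm (σ (V s)), s), by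
      rw [ContinuousLinearMap.coprod_apply, map_sub, add_comm, add_sub, add_sub_right_comm, e,
        sub_add_cancel]⟩

/-- the group together with a family of symmetries -/
theorem joint_der (D : SliceData G L H x₀) {Θ : K × C → C} {V : K →L[ℝ] C}
    (hΘ : HasStrictFDerivAt Θ (V.coprod (.id ℝ C)) (0, x₀)) (h0 : Θ (0, x₀) = x₀) :
    HasStrictFDerivAt (fun p : (L × K) × C => D.e p.1.1 • Θ (p.1.2, p.2))
      ((D.d.coprod V).coprod (.id ℝ C)) (0, x₀) := by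
  have h1 := (hasStrictFDerivAt_fst (𝕜 := ℝ) (p := ((0, x₀) : (L × K) × C))).fst.prodMk
    (HasStrictFDerivAt.comp (f := fun p : (L × K) × C => (p.1.2, p.2)) (0, x₀) hΘ
      (hasStrictFDerivAt_fst.snd.prodMk hasStrictFDerivAt_snd))
  have h2 : HasStrictFDerivAt (fun q : L × C => D.e q.1 • q.2) (D.d.coprod (.id ℝ C))
    (0, Θ (0, x₀)) := by rw [h0]; exact D.act
  have h3 := HasStrictFDerivAt.comp (0, x₀) h2 h1
  exact h3.congr_fderiv (by ext <;> simp)

theorem comp_zero {S : L × C → C} {Λ : L →L[ℝ] C}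
    (hS : HasStrictFDerivAt S (Λ.coprod (.id ℝ C)) (0, x₀)) (h0 : S (0, x₀) = x₀) {F : C → Y}
    {F' : C →L[ℝ] Y} (hF : HasFDerivAt F F' x₀) (hz : ∀ a, F (S (a, x₀)) = 0) (a : L) :
    F' (Λ a) = 0 := by
  have h1 : HasFDerivAt F F' (S (0, x₀)) := by rw [h0]; exact hF
  have h2 := h1.comp (0 : L) (HasFDerivAt.comp (f := fun a : L => (a, x₀)) 0 hS.hasFDerivAt
    (hasFDerivAt_prodMk_left (𝕜 := ℝ) (0 : L) x₀))
  rw [show F ∘ S ∘ (fun a => (a, x₀)) = fun _ => 0 from funext hz] at h2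
  simpa using congrArg (fun T : L →L[ℝ] Y => T a) (h2.unique (hasFDerivAt_const _ _))

/-- uniqueness for linear equations -/
theorem ode_zero (A : C →L[ℝ] C) {f : ℝ → C} (hf : ∀ t, HasDerivAt f (A (f t)) t) (h0 : f 0 = 0)
    (t : ℝ) : f t = 0 :=
  congrFun (ODE_solution_unique_univ (v := fun _ => A) (s := fun _ => univ) (t₀ := 0)
    (fun _ => A.lipschitz.lipschitzOnWith) (fun t => ⟨hf t, trivial⟩) (g := fun _ => 0)
    (fun t => ⟨by simpa using hasDerivAt_const t (0 : C), trivial⟩) h0) t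

/-- the time one maps of a linear family of affine vector fields -/
theorem exists_flow [CompleteSpace C] [FiniteDimensional ℝ K] (B : K →ₗ[ℝ] C →L[ℝ] C)
    (V : K →ₗ[ℝ] C) (x₀ : C) : ∃ Θ : K × C → C, (∀ w, Θ (0, w) = w) ∧
      HasStrictFDerivAt Θ (V.toContinuousLinearMap.coprod (.id ℝ C)) (0, x₀) ∧ ∀ s w t,
        HasDerivAt (fun t : ℝ => Θ (t • s, w)) (B s (Θ (t • s, w) - x₀) + V s) t := by
  let _ : NormedAlgebra ℚ (C × ℝ →L[ℝ] C × ℝ) := .restrictScalars ℚ ℝ _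
  let A : K →ₗ[ℝ] C × ℝ →L[ℝ] C × ℝ :=
    { toFun := fun s => ((B s).coprod (ContinuousLinearMap.toSpanSingleton ℝ (V s))).prod 0
      map_add' := fun s s' => by ext <;> simp
      map_smul' := fun a s => by ext <;> simp }
  have hA : ∀ s p, A s p = (B s p.1 + p.2 • V s, 0) := fun _ _ => rfl
  refine ⟨fun p => x₀ + (NormedSpace.exp (A p.1) (p.2 - x₀, 1)).1, by simp, ?_, fun s w t => ?_⟩
  · have h1 : HasStrictFDerivAt NormedSpace.exp (1 : _ →L[ℝ] _)
        (A.toContinuousLinearMap ((0, x₀) : K × C).1) := by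
      rw [map_zero]; exact hasStrictFDerivAt_exp_zero
    have h2 := ((HasStrictFDerivAt.comp (f := fun p : K × C => A.toContinuousLinearMap p.1) (0, x₀)
      h1 (A.toContinuousLinearMap.hasStrictFDerivAt.comp (0, x₀)
      hasStrictFDerivAt_fst)).clm_apply ((hasStrictFDerivAt_snd.sub_const x₀).prodMk
        (hasStrictFDerivAt_const (1 : ℝ) _))).fst.const_add x₀
    exact h2.congr_fderiv (by ext <;> simp [hA])
  · have hU : ∀ t, HasDerivAt (fun t : ℝ => NormedSpace.exp (t • A s) (w - x₀, 1))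
        (A s (NormedSpace.exp (t • A s) (w - x₀, 1))) t := fun t => by
      simpa using (hasDerivAt_exp_smul_const' (A s) t).clm_apply
        (hasDerivAt_const t ((w - x₀, 1) : C × ℝ))
    have h : ∀ t, HasDerivAt (fun t : ℝ => (NormedSpace.exp (t • A s) (w - x₀, 1)).2) 0 t :=
      fun t => (ContinuousLinearMap.snd ℝ C ℝ).hasFDerivAt.comp_hasDerivAt t (hU t)
    have U2 : (NormedSpace.exp (t • A s) (w - x₀, 1)).2 = 1 := by
      rw [is_const_of_deriv_eq_zero (fun s => (h s).differentiableAt) (fun s => (h s).deriv) t 0]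
      simp
    simp only [map_smul]
    refine (((ContinuousLinearMap.fst ℝ C ℝ).hasFDerivAt.comp_hasDerivAt t (hU t)).const_add x₀
      ).congr_deriv ?_
    simp [hA, U2]

end Crest.Agent.X212.Ker54
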