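import Crest.Agent.X212.Ker54.Abs
import Crest.Agent.X212.Nk89.Lv

/-! The flow of an infinitesimal symmetry in the Banach model. -/

set_option autoImplicit false
set_option linter.unusedSectionVars false
noncomputable section
open scoped Manifold ContDiff Topology InnerProductSpace
open MeasureTheory Set Function Filter NormedSpace

namespace Crest.Agent.X212.Ker54
open An An.Pre Sob92 Prm93 Mod61 Eqv71 Nk89
open Grp76 (Nice mA mO tA onF hs_iff)
open Wz78 (nab SA opL_inj g_p g_p' g_J g_ρ g_j g_skw)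

section alg
variable {𝔸 N : Type} [NormedRing 𝔸] [NormedAlgebra ℝ 𝔸] [CompleteSpace 𝔸]
  [NormedAddCommGroup N] [NormedSpace ℝ N] [CompleteSpace N]

theorem cd_exp : ContDiff ℝ ∞ (exp : 𝔸 → 𝔸) :=
  contDiff_iff_contDiffAt.2 fun a => (exp_analytic a).contDiffAt

theorem ode_alg (X Y W : 𝔸) {D β : ℝ → 𝔸} (hD : ∀ t, HasDerivAt D (Y * exp (t • X) + X * D t) t)
    (D0 : D 0 = 0) (hβ : ∀ t, HasDerivAt β (X * β t - β t * X - (Y + (W * X - X * W))) t)
    (β0 : β 0 = 0) (t : ℝ) : D t + (W + β t) * exp (t • X) - exp (t • X) * W = 0 := by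
  refine ode_zero (ContinuousLinearMap.mul ℝ 𝔸 X)
    (f := fun t => D t + (W + β t) * exp (t • X) - exp (t • X) * W) (fun t => ?_) (by simp [D0, β0]) t
  have h := hasDerivAt_exp_smul_const' X t
  refine (((hD t).add (((hβ t).const_add W).mul h)).sub (h.mul_const W)).congr_deriv ?_
  simp only [ContinuousLinearMap.mul_apply']
  noncomm_ring

theorem ode_spin {X J : N →L[ℝ] N} (hc : J * X = X * J) (hJ : J * J = -1) (c : ℝ) (a : N)
    {ψ : ℝ → N} (h0 : ψ 0 = 0)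
    (hψ : ∀ t, HasDerivAt ψ (X (ψ t) + c • J (ψ t) + (X a + c • J a)) t) :
    a + ψ 1 = Real.cos c • exp X a + Real.sin c • J (exp X a) := by
  have e1 : ∀ v, J (X v) = X (J v) := fun v => congrArg (fun T : N →L[ℝ] N => T v) hc
  have e2 : ∀ v, J (J v) = -v := fun v => congrArg (fun T : N →L[ℝ] N => T v) hJ
  have := ode_zero (X + c • J) (f := fun t => a + ψ t - (Real.cos (t * c) • exp (t • X) a +
    Real.sin (t * c) • J (exp (t • X) a))) (fun t => ?_) (by simp [h0]) 1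
  · simpa [sub_eq_zero] using this
  have h1 := (hasDerivAt_exp_smul_const' X t).clm_apply (hasDerivAt_const t a)
  have h2 := (hasDerivAt_id t).mul_const c
  refine (((hψ t).const_add a).sub ((h2.cos.smul h1).add
    (h2.sin.smul (J.hasFDerivAt.comp_hasDerivAt t h1)))).congr_deriv ?_
  simp only [map_zero, add_zero, mul_apply_eq_comp, _root_.add_apply,
    _root_.smul_apply, map_sub, map_add, map_smul, e1, e2, id, comp_apply]
  module

omit [CompleteSpace N] in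
theorem ode_z {Z : Type} [NormedAddCommGroup Z] [NormedSpace ℂ Z] (c : ℝ) (a : Z) (b : N)
    {z : ℝ → Z × N} (h0 : z 0 = 0) (hz : ∀ t, HasDerivAt z
      (((2 * c * Complex.I : ℂ) • (z t).1, 0) + ((2 * c * Complex.I : ℂ) • a, 0)) t) :
    (a, b) + z 1 = ((Circle.exp c : ℂ) ^ 2 • a, b) := by
  have h2 : ∀ t, HasDerivAt (fun t => (z t).2) 0 t := fun t =>
    ((ContinuousLinearMap.snd ℝ Z N).hasFDerivAt.comp_hasDerivAt t (hz t)).congr_deriv (add_zero _)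
  have h3 := is_const_of_deriv_eq_zero (fun s => (h2 s).differentiableAt)
    (fun s => (h2 s).deriv) 1 0
  have := ode_zero (ContinuousLinearMap.lsmul ℝ ℂ (2 * c * Complex.I : ℂ) : Z →L[ℝ] Z)
    (f := fun t => a + (z t).1 - Complex.exp (t * (2 * c * Complex.I)) • a) (fun t => ?_)
    (by simp [h0]) 1
  · refine Prod.ext ?_ (by simp [h3, h0])
    rw [Circle.coe_exp, ← Complex.exp_nat_mul]
    refine (sub_eq_zero.1 this).trans ?_
    congr 2
    push_cast; ring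
  have h1 := ((Complex.ofRealCLM.hasDerivAt (x := t)).mul_const (2 * c * Complex.I : ℂ)).cexp
  refine ((((ContinuousLinearMap.fst ℝ Z N).hasFDerivAt.comp_hasDerivAt t (hz t)).const_add a).sub
    (h1.smul_const a)).congr_deriv ?_
  simp only [ContinuousLinearMap.lsmul_apply, smul_sub, smul_smul, Complex.ofRealCLM_apply,
    Complex.ofReal_one, one_mul, mul_comm (Complex.exp _), Prod.fst_add, smul_add, add_comm,
    ContinuousLinearMap.coe_fst']

theorem th_alg {R : Type} [Ring R] {D U A a b p d : R} (h1 : D + (A + a + b) * U - U * (A + a) = 0)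
    (h2 : d + (A * p - p * A) = 0) (h3 : a * p = a) (h4 : p * a = a) :
    D * p + U * d + (A + (a + b)) * (U * p) - U * p * (A + a) = 0 := by
  linear_combination (norm := noncomm_ring) h1 * p + U * h2 + U * (h3 - h4)

theorem der_clm {C Z : Type} [NormedAddCommGroup C] [NormedSpace ℝ C] [NormedAddCommGroup Z]
    [NormedSpace ℝ Z] (L : C →L[ℝ] Z) {f : ℝ → C} {a b : C} {t : ℝ} (hf : HasDerivAt f (a + b) t)
    {d : Z} (e : L a + L b = d) : HasDerivAt (fun t => L (f t)) d t :=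
  (L.hasFDerivAt.comp_hasDerivAt t hf).congr_deriv ((map_add L a b).trans e)

theorem der_shift {C : Type} [NormedAddCommGroup C] [NormedSpace ℝ C] {B : C →L[ℝ] C} {v x₀ : C}
    {g : ℝ → C} {t : ℝ} (h : HasDerivAt g (B (g t - x₀) + v) t) (x₁ : C) :
    HasDerivAt (fun t => g t - x₁) (B (g t - x₁) + (B (x₁ - x₀) + v)) t :=
  (h.sub_const _).congr_deriv (by rw [← add_assoc, ← map_add, sub_add_sub_cancel])

theorem exists_blk {A B Z T : Type} [NormedAddCommGroup A] [NormedSpace ℝ A] [NormedAddCommGroup B]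
    [NormedSpace ℝ B] [NormedAddCommGroup Z] [NormedSpace ℝ Z] [NormedAddCommGroup T]
    [NormedSpace ℝ T] (a : A →L[ℝ] A) (b : B →L[ℝ] B) (l : T →L[ℝ] A) (z : Z →L[ℝ] Z) :
    ∃ L : A × B × Z × T →L[ℝ] A × B × Z × T,
      ∀ w, L w = (a w.1 + l w.2.2.2, b w.2.1, z w.2.2.1, 0) :=
  ⟨(a.coprod (l ∘L .snd ℝ _ _ ∘L .snd ℝ _ _)).prod ((b.prodMap (z.prodMap 0)) ∘L .snd ℝ _ _),
    fun _ => rfl⟩

end alg

variable {E : Type} [NormedAddCommGroup E] [NormedSpace ℝ E] [FiniteDimensional ℝ E]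
  [MeasurableSpace E] [BorelSpace E]
  {HM : Type} [TopologicalSpace HM] {I : ModelWithCorners ℝ E HM} [I.Boundaryless]
  {M : Type} [TopologicalSpace M] [ChartedSpace HM M] [IsManifold I ∞ M]
  [MeasurableSpace M] [T2Space M] [BorelSpace M] [SecondCountableTopology M]
  {ι : Type} [Fintype ι] {lam : Type} [Fintype lam]
  {T : Type} [NormedAddCommGroup T] [NormedSpace ℝ T]

section ex
variable {𝔸 : Type} [NormedRing 𝔸] [NormedAlgebra ℝ 𝔸] [CompleteSpace 𝔸]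
  {e : (x : M) → TangentSpace I x} {X : M → 𝔸} {x : M} (hX : SA I X x)
include hX

theorem sa_exp (t : ℝ) : SA I (fun y => exp (t • X y)) x :=
  cd_exp.contMDiff.contMDiffAt.comp x (SA.smul contMDiffAt_const hX)

theorem dv_exp (t : ℝ) : HasDerivAt (fun t : ℝ => dv I e (fun y => exp (t • X y)) x)
    (dv I e X x * exp (t • X x) + X x * dv I e (fun y => exp (t • X y)) x) t := by
  let _ : NormedAlgebra ℚ 𝔸 := .restrictScalars ℚ ℝ _
  have e1 : ∀ s : ℝ, dv I e (fun y => exp (s • X y)) x =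
      s • fderiv ℝ exp (s • X x) (dv I e X x) := fun s => by
    have h1 := ((cd_exp.differentiable (by simp) (s • X x)).hasFDerivAt.comp (X x)
      ((hasFDerivAt_id (X x)).const_smul s))
    exact (dv_comp hX.md h1).trans (by simp)
  have d0 : HasDerivAt (fun s : ℝ => dv I e (fun y => exp (s • X y)) x) (dv I e X x) (t - t) := by
    have h1 : DifferentiableAt ℝ (fun s : ℝ => fderiv ℝ exp (s • X x) (dv I e X x)) 0 :=
      ((((cd_exp.fderiv_right (m := ∞) (by simp)).differentiable (by simp) _).comp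
        0 (by fun_prop)).clm_apply (differentiableAt_const _))
    simp only [e1, sub_self]
    refine ((hasDerivAt_id (0 : ℝ)).smul h1.hasDerivAt).congr_deriv ?_
    simp [(hasFDerivAt_exp_zero (𝕂 := ℝ) (𝔸 := 𝔸)).fderiv]
  have d1 : HasDerivAt (fun s : ℝ => exp (s • X x)) (X x) (t - t) :=
    (hasDerivAt_exp_smul_const' (X x) _).congr_deriv (by simp)
  refine (((d0.comp_sub_const t t).mul_const _).add ((d1.comp_sub_const t t).mul_const _)
    ).congr_of_eventuallyEq (Eventually.of_forall fun s => ?_)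
  refine Eq.trans ?_ (Wz78.dv_mul (sa_exp hX (s - t)) (sa_exp hX t))
  refine congrArg (fun f => dv I e f x) (funext fun y => ?_)
  rw [← exp_add_of_commute ((Commute.refl (X y)).smul_left _ |>.smul_right _), ← add_smul,
    sub_add_cancel]

end ex

variable {𝔉 : Fam I M ι lam T} (h : 𝔉.OK) {o : Ref 𝔉} {r k j : ℕ} {x : M} {y : Pnt o r}
  {ξ η : M → o.m.A} {c c' : ℝ}

/-- the covariant derivative in the Sobolev frame -/
def n0 (y : Pnt o r) (ξ : M → o.m.A) (a : ι) : M → o.m.A :=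
  nab I 𝔉.F0.e (fun a x => adc (o.A y.t a x + opL (y.α x a))) a ξ

/-- the automorphism generated by `ξ` -/
def uX (ξ : M → o.m.A) (x : M) : CL o.m.V o.m.V := exp (opL (ξ x)) * o.m.p x

variable (o) in
/-- `ξ` commutes with the moving part of the base connection up to decaying terms -/
def Mb (ξ : M → o.m.A) : Prop :=
  ∀ t a, Nice 𝔉.F0.toPre fun x => mA (ξ x) (o.b t x a) - mA (o.b t x a) (ξ x)

theorem mb_B0 [o.B0] (ξ : M → o.m.A) : Mb o ξ := fun t a => by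
  simpa [o.b_zero] using Nice.of_hcs (F := 𝔉.F0.toPre) (u := fun _ : M => (0 : o.m.A))
    contMDiff_const HasCompactSupport.zero

/-- the linear part of the infinitesimal action -/
structure Gen (k : ℕ) (ξ : M → o.m.A) (c : ℝ) (B : o.C r k →L[ℝ] o.C r k) : Prop where
  α : ∀ w x a, 𝔉.F0.val _ _ (B w).1 x a = mA (ξ x) (𝔉.F0.val _ _ w.1 x a + o.b w.2.2.2 x a) -
    mA (𝔉.F0.val _ _ w.1 x a + o.b w.2.2.2 x a) (ξ x)
  φ : ∀ w x, 𝔉.F0.val _ _ (B w).2.1 x =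
    opL (ξ x) (𝔉.F0.val _ _ w.2.1 x) + c • o.m.J (𝔉.F0.val _ _ w.2.1 x)
  z : ∀ w, (B w).2.2 = ((2 * c * Complex.I : ℂ) • w.2.2.1, 0)

/-- `IsInf` in the Sobolev frame -/
structure In0 (k : ℕ) (y : Pnt o r) (ξ : M → o.m.A) (c : ℝ) (v : o.C r k) : Prop where
  α : ∀ x a, 𝔉.F0.val _ _ v.1 x a = -n0 y ξ a x
  φ : ∀ x, 𝔉.F0.val _ _ v.2.1 x = opL (ξ x) (o.Φ0 x + y.φ x) + c • o.m.J (o.Φ0 x + y.φ x)
  z : v.2.2 = ((2 * c * Complex.I : ℂ) • y.z, 0)

/-- `w` is the image of `y` under `(exp ξ, exp (i c))` -/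
structure Img (k : ℕ) (y : Pnt o r) (ξ : M → o.m.A) (c : ℝ) (w : o.C r k) : Prop where
  α : ∀ x a, th o o y.t y.α (𝔉.F0.val _ _ w.1) (uX ξ) a x = 0
  φ : ∀ x, o.Φ0 x + 𝔉.F0.val _ _ w.2.1 x = cs o.m.J (Circle.exp c) (uX ξ x (o.Φ0 x + y.φ x))
  z : w.2.2 = ((Circle.exp c : ℂ) ^ 2 • y.z, y.t)

theorem opL_n0 (hξ : MDifferentiableAt I 𝓘(ℝ, o.m.A) ξ x) (a : ι) : opL (n0 y ξ a x) =
    dv I (𝔉.F0.e a) (fun z => opL (ξ z)) x + ((o.A y.t a x + opL (y.α x a)) * opL (ξ x) -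
      opL (ξ x) * (o.A y.t a x + opL (y.α x a))) := by
  rw [n0, nab, map_add, Wz78.opL_adc, dv_clm opL hξ]

theorem n0_add (hξ : MDifferentiableAt I 𝓘(ℝ, o.m.A) ξ x) (hη : MDifferentiableAt I 𝓘(ℝ, o.m.A) η x)
    (a : ι) : n0 y (ξ + η) a x = n0 y ξ a x + n0 y η a x := by
  simp only [n0, nab, dv_add hξ hη, Pi.add_apply, map_add]; abel

theorem n0_smul (hξ : MDifferentiableAt I 𝓘(ℝ, o.m.A) ξ x) (s : ℝ) (a : ι) :
    n0 y (s • ξ) a x = s • n0 y ξ a x := by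
  simp only [n0, nab, dv_const_smul s hξ, Pi.smul_apply, map_smul, smul_add]

theorem In0.add {v w : o.C r k} (a : In0 k y ξ c v) (b : In0 k y η c' w)
    (hξ : MDifferentiable I 𝓘(ℝ, o.m.A) ξ) (hη : MDifferentiable I 𝓘(ℝ, o.m.A) η) :
    In0 k y (ξ + η) (c + c') (v + w) where
  α x i := by
    rw [Prod.fst_add, val_add, Pi.add_apply, PiLp.add_apply, a.α, b.α, n0_add (hξ x) (hη x), neg_add]
  φ x := by
    rw [Prod.snd_add, Prod.fst_add, val_add, Pi.add_apply, a.φ, b.φ, Pi.add_apply, map_add opL,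
      _root_.add_apply, add_smul]
    abel
  z := by
    rw [Prod.snd_add, Prod.snd_add, a.z, b.z, Prod.mk_add_mk, add_zero, ← add_smul]
    congr 2
    push_cast; ring

theorem In0.smul {v : o.C r k} (a : In0 k y ξ c v) (hξ : MDifferentiable I 𝓘(ℝ, o.m.A) ξ) (s : ℝ) :
    In0 k y (s • ξ) (s • c) (s • v) where
  α x i := by
    rw [Prod.smul_fst, val_smul, Pi.smul_apply, PiLp.smul_apply, a.α, n0_smul (hξ x), smul_neg]
  φ x := by
    rw [Prod.smul_snd, Prod.smul_fst, val_smul, Pi.smul_apply, a.φ, Pi.smul_apply, map_smul opL,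
      _root_.smul_apply, smul_add, smul_assoc]
  z := by
    rw [Prod.smul_snd, Prod.smul_snd, a.z, Prod.smul_mk, smul_zero, ← smul_assoc]
    congr 2
    simp only [smul_eq_mul, Complex.real_smul]
    push_cast; ring

theorem Gen.add {B B' : o.C r k →L[ℝ] o.C r k} (a : Gen k ξ c B) (b : Gen k η c' B') :
    Gen k (ξ + η) (c + c') (B + B') where
  α w x i := by
    rw [_root_.add_apply, Prod.fst_add, val_add, Pi.add_apply, PiLp.add_apply, a.α, b.α]
    simp only [Pi.add_apply, map_add, _root_.add_apply]; abel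
  φ w x := by
    rw [_root_.add_apply, Prod.snd_add, Prod.fst_add, val_add, Pi.add_apply, a.φ, b.φ,
      Pi.add_apply, map_add opL, _root_.add_apply, add_smul]
    abel
  z w := by
    rw [_root_.add_apply, Prod.snd_add, Prod.snd_add, a.z, b.z, Prod.mk_add_mk,
      add_zero, ← add_smul]
    congr 2
    push_cast; ring

theorem Gen.smul {B : o.C r k →L[ℝ] o.C r k} (a : Gen k ξ c B) (s : ℝ) :
    Gen k (s • ξ) (s • c) (s • B) where
  α w x i := by
    rw [_root_.smul_apply, Prod.smul_fst, val_smul, Pi.smul_apply, PiLp.smul_apply, a.α]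
    simp only [Pi.smul_apply, map_smul, _root_.smul_apply, smul_sub]
  φ w x := by
    rw [_root_.smul_apply, Prod.smul_snd, Prod.smul_fst, val_smul, Pi.smul_apply, a.φ,
      Pi.smul_apply, map_smul opL, _root_.smul_apply, smul_add, smul_assoc]
  z w := by
    rw [_root_.smul_apply, Prod.smul_snd, Prod.smul_snd, a.z, Prod.smul_mk, smul_zero,
      ← smul_assoc]
    congr 2
    simp only [smul_eq_mul, Complex.real_smul]
    push_cast; ring

theorem mx_uX (hξ : ξ x ∈ o.m.gS x) : MX o o x (uX ξ x) := by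
  let _ : NormedAlgebra ℚ (En (Fin o.m.N)) := .restrictScalars ℚ ℝ _
  have cm : ∀ {S : En (Fin o.m.N)}, S * opL (ξ x) = opL (ξ x) * S →
      S * exp (opL (ξ x)) = exp (opL (ξ x)) * S := fun e => (Commute.exp_right e).eq
  obtain ⟨u1, u2⟩ := Unitary.mem_iff.1 (exp_mem_unitary_of_mem_skewAdjoint (x := opL (ξ x))
    (skewAdjoint.mem_iff.2 (Wz78.Skw.trn (g_skw hξ))))
  change trn _ * _ = 1 at u1
  change _ * trn _ = 1 at u2
  have cp := cm ((g_p hξ).trans (g_p' o.ok hξ).symm)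
  have pp := o.ok.pidem x
  have tp := Wz78.Sym.trn (o.ok.psym x)
  refine mx_of ?_ ?_ ?_ (fun b => ?_) fun s => ?_ <;>
    simp only [uX, ← ContinuousLinearMap.mul_def, Wz78.trn_mul, tp]
  · rw [mul_assoc, ← mul_assoc (trn _), u1, one_mul, pp]
  · rw [mul_assoc, ← mul_assoc (o.m.p x), pp, ← mul_assoc, ← cp, mul_assoc, u2, mul_one]
  · rw [mul_assoc, ← o.ok.Jp, ← mul_assoc, ← cm (g_J hξ), mul_assoc]
  · rw [← mul_assoc, cm (g_ρ hξ b), mul_assoc, mul_assoc, (o.ok.cl x).pl, (o.ok.cl x).pr]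
  · have h1 := o.ok.pj x s
    have h2 := congrArg trn h1
    rw [Wz78.trn_mul, tp, Wz78.Sym.trn (o.ok.jsym x s)] at h2
    rw [← mul_assoc, cm (g_j hξ s), mul_assoc, mul_assoc, h1, h2]

theorem sm_uX (hξ : Sm I ξ) : Sm I (uX ξ) := fun x =>
  SA.mul (cd_exp.contMDiff.contMDiffAt.comp x (opL.contMDiff.contMDiffAt.comp x (hξ x))) (o.ok.sp x)

include h

theorem In0.unique (hk : 3 ≤ k) {v w : o.C r k} (a : In0 k y ξ c v) (b : In0 k y ξ c w) : v = w :=
  C_ext h hk (funext fun x => PiLp.ext fun i => (a.α x i).trans (b.α x i).symm)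
    (funext fun x => (a.φ x).trans (b.φ x).symm) (a.z.trans b.z.symm)

theorem Gen.unique (hk : 3 ≤ k) {B B' : o.C r k →L[ℝ] o.C r k} (a : Gen k ξ c B)
    (b : Gen k ξ c B') : B = B' := ContinuousLinearMap.ext fun w =>
  C_ext h hk (funext fun x => PiLp.ext fun i => (a.α w x i).trans (b.α w x i).symm)
    (funext fun x => (a.φ w x).trans (b.φ w x).symm) ((a.z w).trans (b.z w).symm)

/-- change of frame -/
theorem nab_W (hξ : ξ x ∈ o.m.gS x) (a : ι) :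
    nab I (𝔉.G y.t).F.e (o.m.adW (o.W y.t y.α)) a ξ x = ∑ b, 𝔉.S y.t x a b • n0 y ξ b x := by
  have h1 : ∀ b k, o.m.ρ b x * o.m.ρ k x * opL (ξ x) = opL (ξ x) * (o.m.ρ b x * o.m.ρ k x) :=
    fun b k => by rw [mul_assoc, g_ρ hξ, ← mul_assoc, g_ρ hξ, mul_assoc]
  have h2 : o.m.J * o.m.p x * opL (ξ x) = opL (ξ x) * (o.m.J * o.m.p x) := by
    rw [mul_assoc, g_p hξ, o.ok.Jp, ← mul_assoc, g_p' o.ok hξ, g_J hξ]
  have h3 := congrFun ((h.mix _ y.ht).D a ξ) x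
  refine opL_inj ?_
  simp only [D_def] at h3
  simp only [nab, n0, h3, Md.adW, map_add, map_sum, map_smul, Wz78.opL_adc, W_apply, Fam.W0,
    add_mul, mul_add, Finset.sum_mul, Finset.mul_sum, smul_mul_assoc, mul_smul_comm, h1, h2,
    smul_add, smul_sub, Finset.sum_add_distrib, Finset.sum_sub_distrib]
  abel

theorem sum_n0 (y : Pnt o r) (ξ : M → o.m.A) (a : ι) :
    ∑ b, 𝔉.B.P a b x • n0 y ξ b x = n0 y ξ a x := by
  have h1 : ∑ b, 𝔉.B.P a b x • dv I (𝔉.F0.e b) ξ x = dv I (𝔉.F0.e a) ξ x :=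
    h.P0 ▸ (Wz78.frm 𝔉.F0).projD a ξ x
  simp only [n0, nab, smul_add, Finset.sum_add_distrib, h1, ← Wz78.adcL_apply]
  rw [← idx_sum (y.pα h x) a, ← (o.connA h.B y.t).cc.proj a x]
  simp only [map_add, map_sum, map_smul, _root_.add_apply,
    _root_.sum_apply, _root_.smul_apply, smul_add, Finset.sum_add_distrib]

theorem n0_eq (hξ : ξ x ∈ o.m.gS x) (a : ι) : n0 y ξ a x =
    ∑ b, 𝔉.Si y.t x a b • nab I (𝔉.G y.t).F.e (o.m.adW (o.W y.t y.α)) b ξ x := by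
  simp only [nab_W h hξ, Finset.smul_sum, smul_smul]
  rw [Finset.sum_comm]
  simp only [← Finset.sum_smul, h.SiS _ y.ht, sum_n0 h]

theorem In0.isInf {v : o.C r k} (a : In0 k y ξ c v) (hξ : ∀ x, ξ x ∈ o.m.gS x) : IsInf k y ξ c v :=
  ⟨fun x i => by simp only [a.α, nab_W h (hξ x), smul_neg, Finset.sum_neg_distrib], a.φ, a.z⟩

theorem br_mem {a b : o.m.A} (ha : o.Pg x a = a) (hb : o.Pg x b = b) :
    o.Pg x (mA a b - mA b a) = mA a b - mA b a := by
  have H := (Grp76.hyp o h le_rfl).toOK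
  obtain ⟨a1, a2⟩ := (H.g_iff x a).1 ha
  obtain ⟨b1, b2⟩ := (H.g_iff x b).1 hb
  exact (H.g_iff x _).2 ⟨by rw [map_sub, H.mul x _ _ a1 b1, H.mul x _ _ b1 a1],
    by simp [Grp76.tA_mA, a2, b2]⟩

theorem n0_mem (hd : MDifferentiable I 𝓘(ℝ, o.m.A) ξ) (hξ : ∀ x, o.Pg x (ξ x) = ξ x) (a : ι)
    (x : M) : o.Pg x (n0 y ξ a x) = n0 y ξ a x := by
  have H := Grp76.hyp o h le_rfl
  have h1 := fun x => (H.g_iff x _).1 (hξ x)
  have h2 : n0 y ξ a x = nab I 𝔉.F0.e (Grp76.qb o).ad a ξ x +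
      (mA ((y.α x + o.b y.t x) a) (ξ x) - mA (ξ x) ((y.α x + o.b y.t x) a)) := by
    rw [← Grp76.adc_opL]
    simp only [n0, nab, Grp76.QB.ad, ← Wz78.adcL_apply, map_add, _root_.add_apply, Ref.A, Md.addC,
      PiLp.add_apply]
    abel
  rw [h2, map_add, br_mem h (((H.c_iff x _).1 (add_b (y.pα h x) _)).1 a) (hξ x)]
  refine congrArg (· + _) ((H.g_iff x _).2 ⟨H.par ξ hd (fun x => (h1 x).1) a x, ?_⟩)
  rw [← H.nab_t (hd x), funext fun x => (h1 x).2]
  simp only [nab, map_neg, neg_add]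
  exact congrArg (· + _) (dv_neg ξ x)

theorem spin_mem (hξ : o.Pg x (ξ x) = ξ x) {v : o.m.V} (hv : o.Pp x v = v) :
    o.Pp x (opL (ξ x) v + c • o.m.J v) = opL (ξ x) v + c • o.m.J v := by
  have h1 := ((Grp76.Pg_iff h x _).1 hξ).1
  rw [map_add, map_smul, Grp76.Pp_comm ((g_p' o.ok h1).trans (g_p h1).symm)
    (fun a => (g_ρ h1 a).symm) hv, Grp76.Pp_comm (o.ok.Jp x) (fun a => o.ok.Jρ a x) hv]

theorem maps_br (hξ : ∀ x, o.Pg x (ξ x) = ξ x) :
    Maps o.P1 o.P1 fun x => onF ι (mA - mO) (ξ x) := fun x η e => by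
  have H := (Grp76.hyp o h le_rfl).toOK
  obtain ⟨e1, e2⟩ := (H.c_iff x η).1 e
  refine (H.c_iff x _).2 ⟨fun a => ?_, fun a => ?_⟩
  · rw [Grp76.onF_apply]; exact br_mem h (hξ x) (e1 a)
  · simp only [Grp76.onF_apply, ← map_smul, ← map_sum, e2]

theorem Mb.ex [CompleteSpace T] (mb : Mb o ξ) (hξ : ∀ x, o.Pg x (ξ x) = ξ x) (hk : 4 ≤ k) :
    ∃ L : T →L[ℝ] 𝔉.F0.H k o.P1,
      ∀ t, 𝔉.F0.val k _ (L t) = fun x => onF ι (mA - mO) (ξ x) (o.b t x) := by
  have mv : ∀ t, (fun x => onF ι (mA - mO) (ξ x) (o.b t x)) ∈ Hs 𝔉.F0.toPre o.P1 := fun t =>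
    (hs_iff h).2 ⟨Nice.fm fun a => by simp only [Grp76.onF_apply]; exact mb t a,
      fun x => maps_br h hξ x _ (b_P1 t x)⟩
  let L : T →ₗ[ℝ] 𝔉.F0.H k o.P1 := ⟨⟨fun t => ofV _ k _ fun x => onF ι (mA - mO) (ξ x) (o.b t x),
    fun s t => ofV_eq h.sup hk (by
      rw [val_add, val_ofV (mv s) hk, val_ofV (mv t) hk]
      exact funext fun x => by rw [map_add, Pi.add_apply, Pi.add_apply, map_add])⟩,
    fun c t => ofV_eq h.sup hk (by
      rw [val_smul, val_ofV (mv t) hk]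
      exact funext fun x => by rw [map_smul, Pi.smul_apply, Pi.smul_apply, map_smul]; rfl)⟩
  have hL : ∀ t, 𝔉.F0.val k _ (L t) = _ := fun t => val_ofV (mv t) hk
  refine ⟨⟨L, L.continuous_of_seq_closed_graph fun u t g hu hg => ?_⟩, hL⟩
  refine (ofV_eq h.sup hk (funext fun x => ?_)).symm
  have h1 : Continuous fun t => onF ι (mA - mO) (ξ x) (o.b t x) :=
    (ContinuousLinearMap.continuous _).comp (continuousOn_univ.1 (o.sb.ev x).continuousOn)
  refine tendsto_nhds_unique (((continuous_val_apply x).tendsto g).comp hg) ?_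
  simpa only [Function.comp_def, hL] using (h1.tendsto t).comp hu

theorem exists_gen [CompleteSpace T] (hk : 3 ≤ k) (cb : 𝔉.F0.Cb ξ) (hξ : ∀ x, o.Pg x (ξ x) = ξ x)
    (mb : Mb o ξ) (c : ℝ) : ∃ B : o.C r k →L[ℝ] o.C r k, Gen k ξ c B := by
  have h4 : 4 ≤ k + 1 := by omega
  obtain ⟨L, hL⟩ := mb.ex h hξ h4
  obtain ⟨B1, h1⟩ : ∃ B : 𝔉.F0.H (k + 1) o.P1 →L[ℝ] 𝔉.F0.H (k + 1) o.P1, ∀ w x,
      𝔉.F0.val _ _ (B w) x = onF ι (mA - mO) (ξ x) (𝔉.F0.val _ _ w x) :=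
    ⟨_, val_mulH h.sup h4 (Cb_clm (onF ι (mA - mO)) cb) (maps_br h hξ)⟩
  obtain ⟨B2, h2⟩ : ∃ B : 𝔉.F0.H (k + 1) o.Pp →L[ℝ] 𝔉.F0.H (k + 1) o.Pp, ∀ w x,
      𝔉.F0.val _ _ (B w) x = (opL (ξ x) + c • o.m.J) (𝔉.F0.val _ _ w x) :=
    ⟨_, val_mulH h.sup h4 (Cb_add (Cb_clm opL cb) (Cb_const (c • o.m.J)))
      fun x v e => spin_mem h (hξ x) e⟩
  obtain ⟨B, hB⟩ := exists_blk B1 B2 L (ContinuousLinearMap.lsmul ℝ ℂ (2 * c * Complex.I : ℂ) :
    EuclideanSpace ℂ (Fin r) →L[ℝ] EuclideanSpace ℂ (Fin r))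
  refine ⟨B, fun w x a => ?_, fun w x => by rw [hB, h2]; rfl, fun w => by rw [hB]; rfl⟩
  rw [hB, val_add, Pi.add_apply, h1, hL, ← map_add, Grp76.onF_apply]
  rfl

theorem exists_in0 (hk : 3 ≤ k) (a : Inf y ξ c) : ∃ v : o.C r k, In0 k y ξ c v := by
  have H := (Grp76.hyp o h le_rfl).toOK
  have h4 : 4 ≤ k + 1 := by omega
  have hd := (Cb.sm a.cb).mdifferentiable (by simp)
  obtain ⟨v1, e1⟩ := (hs_iff h (p := o.P1) (u := fun x => WithLp.toLp 2 fun i => -n0 y ξ i x)).2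
    ⟨Nice.fm fun i => by
      simp only [n0_eq h ((Grp76.Pg_iff h _ _).1 (a.mem _)).1]
      exact (Nice.sum _ fun b => (a.A b).bil (ContinuousLinearMap.lsmul ℝ ℝ)
        ((h.sSi i b).cb _ y.ht)).clm (-.id ℝ _), fun x => (H.c_iff x _).2
      ⟨fun i => by simp only [map_neg]; exact congrArg _ (n0_mem h hd a.mem i x), fun i => by
        simp only [smul_neg, Finset.sum_neg_distrib, h.P0, sum_n0 h]⟩⟩ _ h4
  obtain ⟨v2, e2⟩ := (hs_iff h (p := o.Pp)).2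
    ⟨a.Φ, fun x => spin_mem h (a.mem x) (y.pΦ h x)⟩ _ h4
  exact ⟨(v1, v2, _, 0), fun x i => by rw [e1], fun x => by rw [e2], rfl⟩

section ode
variable (hk : 3 ≤ k) (sm : Sm I ξ) (hξ : ∀ x, ξ x ∈ o.m.gS x)
    {B : o.C r k →L[ℝ] o.C r k} (gB : Gen k ξ c B) {v : o.C r k} (gv : In0 k y ξ c v)
    {f : ℝ → o.C r k} (f0 : f 0 = 0) (hf : ∀ t, HasDerivAt f (B (f t) + v) t)
include hk gB gv f0 hf

omit hk h in
theorem ode_t (t : ℝ) : (f t).2.2.2 = 0 := by
  obtain ⟨L, hL⟩ : ∃ L : o.C r k →L[ℝ] T, ∀ w, L w = w.2.2.2 :=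
    ⟨.snd ℝ _ _ ∘L .snd ℝ _ _ ∘L .snd ℝ _ _, fun _ => rfl⟩
  have h1 : ∀ t, HasDerivAt (fun t => L (f t)) 0 t := fun t =>
    der_clm L (hf t) (by rw [hL, hL, gB.z, gv.z, add_zero])
  rw [← hL, is_const_of_deriv_eq_zero (fun s => (h1 s).differentiableAt) (fun s => (h1 s).deriv)
    t 0, f0, map_zero]

omit hk h in
include sm in
theorem ode_β (x : M) (a : ι) : dv I (𝔉.F0.e a) (fun z => exp ((1 : ℝ) • opL (ξ z))) x +
    (o.A y.t a x + opL (y.α x a) + opL (𝔉.F0.val _ _ (f 1).1 x a)) * exp ((1 : ℝ) • opL (ξ x)) -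
    exp ((1 : ℝ) • opL (ξ x)) * (o.A y.t a x + opL (y.α x a)) = 0 := by
  have s1 : SA I (fun z => opL (ξ z)) x := opL.contMDiff.contMDiffAt.comp x (sm x)
  obtain ⟨L, hL⟩ : ∃ L : o.C r k →L[ℝ] En (Fin o.m.N), ∀ w, L w = opL (𝔉.F0.val _ _ w.1 x a) :=
    ⟨opL ∘L Grp76.pj _ a ∘L 𝔉.F0.ev _ _ x ∘L ContinuousLinearMap.fst ℝ _ _, fun _ => rfl⟩
  have e : ∀ t, L (B (f t)) + L v = opL (ξ x) * L (f t) - L (f t) * opL (ξ x) -
      (dv I (𝔉.F0.e a) (fun z => opL (ξ z)) x + ((o.A y.t a x + opL (y.α x a)) * opL (ξ x) -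
        opL (ξ x) * (o.A y.t a x + opL (y.α x a)))) := fun t => by
    rw [hL, hL, hL, gB.α, gv.α, ode_t gB gv f0 hf, map_zero, Pi.zero_apply, PiLp.zero_apply,
      add_zero, map_neg, opL_n0 (Wz78.SA.md (sm x)), map_sub, Grp76.opL_mA,
      Grp76.opL_mA, ← sub_eq_add_neg]
  rw [← hL]
  exact ode_alg _ _ _ (dv_exp s1) (by simp) (fun t => der_clm L (hf t) (e _))
    (by rw [f0, map_zero]) 1

include sm in
theorem ode_α (x : M) (a : ι) : th o o y.t y.α (𝔉.F0.val _ _ (y.pt k + f 1).1) (uX ξ) a x = 0 := by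
  have h1 := ode_β sm gB gv f0 hf x a
  have h2 := (o.connA h.B y.t).cc.par a x
  have h3 := Wz78.dv_mul (e := 𝔉.F0.e a)
    (sa_exp (opL.contMDiff.contMDiffAt.comp x (sm x) : SA I (fun z => opL (ξ z)) x) 1) (o.ok.sp x)
  have h4 := idx_mem (y.pα h x) a
  simp only [one_smul, comp_apply] at h1 h3
  rw [h.e0] at h2
  rw [th, D_def, Prod.fst_add, val_add, y.val_α hk, Pi.add_apply, PiLp.add_apply, map_add]
  unfold uX
  rw [h3]
  exact th_alg h1 h2 (g_p' o.ok h4) (g_p h4)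

include hξ in
theorem ode_φ (x : M) : o.Φ0 x + 𝔉.F0.val _ _ (y.pt k + f 1).2.1 x =
    cs o.m.J (Circle.exp c) (uX ξ x (o.Φ0 x + y.φ x)) := by
  obtain ⟨L, hL⟩ : ∃ L : o.C r k →L[ℝ] o.m.V, ∀ w, L w = 𝔉.F0.val _ _ w.2.1 x :=
    ⟨𝔉.F0.ev _ _ x ∘L ContinuousLinearMap.fst ℝ _ _ ∘L ContinuousLinearMap.snd ℝ _ _, fun _ => rfl⟩
  have h1 := ode_spin (g_J (hξ x)) o.ok.Jsq c (o.Φ0 x + y.φ x) (ψ := fun t => L (f t))
    (by rw [f0, map_zero]) fun t => der_clm L (hf t) (by rw [hL, hL, hL, gB.φ, gv.φ])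
  rw [Prod.snd_add, Prod.fst_add, val_add, y.val_φ hk, Pi.add_apply, ← add_assoc, ← hL, h1, uX,
    mul_apply_eq_comp, show o.m.p x (o.Φ0 x + y.φ x) = o.Φ0 x + y.φ x from
      Grp76.p_Pp h (y.pΦ h x), cs, Circle.coe_exp, Complex.exp_ofReal_mul_I_re,
    Complex.exp_ofReal_mul_I_im]

omit hk h in
theorem ode_zt : (y.pt k + f 1).2.2 = ((Circle.exp c : ℂ) ^ 2 • y.z, y.t) := by
  obtain ⟨L, hL⟩ : ∃ L : o.C r k →L[ℝ] EuclideanSpace ℂ (Fin r) × T, ∀ w, L w = w.2.2 :=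
    ⟨ContinuousLinearMap.snd ℝ _ _ ∘L ContinuousLinearMap.snd ℝ _ _, fun _ => rfl⟩
  rw [Prod.snd_add, Prod.snd_add, ← hL (f 1)]
  exact ode_z c y.z y.t (z := fun t => L (f t)) (by rw [f0, map_zero])
    fun t => der_clm L (hf t) (by rw [hL, hL, hL, gB.z, gv.z])

include sm hξ in
/-- the time one map of the flow is the action of the exponential -/
theorem img_of_ode : Img k y ξ c (y.pt k + f 1) :=
  ⟨ode_α h hk sm gB gv f0 hf, ode_φ h hk hξ gB gv f0 hf, ode_zt gB gv f0 hf⟩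

end ode

theorem Img.unique (hk : 3 ≤ k) (hξ : ∀ x, ξ x ∈ o.m.gS x) {v w : o.C r k} (a : Img k y ξ c v)
    (b : Img k y ξ c w) : v = w := by
  refine C_ext h hk (funext fun x => PiLp.ext fun i => ?_)
    (funext fun x => add_left_cancel ((a.φ x).trans (b.φ x).symm)) (a.z.trans b.z.symm)
  refine (mx_uX (hξ x)).cancel (idx_mem (val_proj h.sup (by omega) v.1 x) i)
    (idx_mem (val_proj h.sup (by omega) w.1 x) i) ?_
  have := (a.α x i).trans (b.α x i).symm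
  rwa [th, th, sub_left_inj, add_right_inj, ContinuousLinearMap.add_comp,
    ContinuousLinearMap.add_comp, add_right_inj] at this

theorem Img.iC (hk : 3 ≤ k) (hj : k ≤ j) {w : o.C r j} (a : Img j y ξ c w) :
    Img k y ξ c (o.iC r k j w) := by
  obtain ⟨e1, e2, e3⟩ := snd_snd (iC_apply (k := k) w)
  exact ⟨fun x i => by rw [e1, val_incl h.sup (by omega) (by omega)]; exact a.α x i,
    fun x => by rw [e2, val_incl h.sup (by omega) (by omega)]; exact a.φ x, e3.trans a.z⟩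

omit h in
/-- the infinitesimal action at another point -/
theorem In0.move (hk : 3 ≤ k) {B : o.C r k →L[ℝ] o.C r k} (gB : Gen k ξ c B) {v : o.C r k}
    (gv : In0 k y ξ c v) (y' : Pnt o r) : In0 k y' ξ c (B (y'.pt k - y.pt k) + v) where
  α x a := by
    rw [Prod.fst_add, val_add, Pi.add_apply, PiLp.add_apply, gB.α, gv.α, Prod.fst_sub, val_sub,
      y.val_α hk, y'.val_α hk, show (y'.pt k - y.pt k).2.2.2 = y'.t - y.t from rfl]
    simp only [n0, nab, ← Wz78.adcL_apply, map_add, _root_.add_apply, Pi.sub_apply, PiLp.sub_apply,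
      map_sub, _root_.sub_apply, Ref.A, Md.addC]
    simp only [Wz78.adcL_apply, Grp76.adc_opL]
    abel
  φ x := by
    rw [Prod.snd_add, Prod.fst_add, val_add, Pi.add_apply, gB.φ, gv.φ, Prod.snd_sub, Prod.fst_sub,
      val_sub, y.val_φ hk, y'.val_φ hk]
    simp only [Pi.sub_apply, map_sub, map_add, smul_add, smul_sub]
    abel
  z := by
    rw [Prod.snd_add, Prod.snd_add, gB.z, gv.z, Prod.mk_add_mk, add_zero, ← smul_add]
    exact congrArg (fun z => ((2 * c * Complex.I : ℂ) • z, (0 : T))) (sub_add_cancel _ _)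

variable [CompleteSpace T] {K : Type} [NormedAddCommGroup K] [NormedSpace ℝ K]
  [FiniteDimensional ℝ K] {ξ : K →ₗ[ℝ] M → o.m.A} {c : K →ₗ[ℝ] ℝ} (a : ∀ s, Inf y (ξ s) (c s))
  (mb : ∀ s, Mb o (ξ s))
include a mb

theorem exists_img (hk : 3 ≤ k) : ∃ (Θ : K × o.C r k → o.C r k) (V : K →L[ℝ] o.C r k),
    (∀ w, Θ (0, w) = w) ∧ HasStrictFDerivAt Θ (V.coprod (.id ℝ _)) (0, y.pt k) ∧
    (∀ s, In0 k y (ξ s) (c s) (V s)) ∧
    ∀ s (y' : Pnt o r), Img k y' (ξ s) (c s) (Θ (s, y'.pt k)) := by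
  have hd := fun s => (Cb.sm (a s).cb).mdifferentiable (by simp)
  choose B hB using fun s => exists_gen (r := r) h hk (a s).cb (a s).mem (mb s) (c s)
  choose V hV using fun s => exists_in0 h hk (a s)
  obtain ⟨Θ, h0, h1, h2⟩ := exists_flow
    ⟨⟨B, fun s s' => (hB _).unique h hk (by rw [map_add, map_add]; exact (hB s).add (hB s'))⟩,
      fun t s => (hB _).unique h hk (by rw [map_smul, map_smul]; exact (hB s).smul t)⟩
    ⟨⟨V, fun s s' => (hV _).unique h hk (by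
        rw [map_add, map_add]; exact (hV s).add (hV s') (hd s) (hd s'))⟩,
      fun t s => (hV _).unique h hk (by rw [map_smul, map_smul]; exact (hV s).smul (hd s) t)⟩
    (y.pt k)
  refine ⟨Θ, _, h0, h1, hV, fun s y' => ?_⟩
  have := img_of_ode h hk (Cb.sm (a s).cb) (fun x => ((Grp76.Pg_iff h _ _).1 ((a s).mem x)).1)
    (hB s) ((hV s).move hk (hB s) y') (f := fun t => Θ (t • s, y'.pt k) - y'.pt k)
    (by rw [zero_smul, h0, sub_self]) fun t => der_shift (h2 s _ t) _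
  rwa [one_smul, add_sub_cancel] at this

/-- **The action of a finite dimensional space of symmetries.** -/
theorem exists_orb (hk : 3 ≤ k) : ∃ (Θ : K × o.C r k → o.C r k) (V : K →L[ℝ] o.C r k),
    (∀ w, Θ (0, w) = w) ∧ HasStrictFDerivAt Θ (V.coprod (.id ℝ _)) (0, y.pt k) ∧
    (∀ s, In0 k y (ξ s) (c s) (V s)) ∧ ∀ s (y' : Pnt o r), ∃ z : Pnt o r,
      z.pt k = Θ (s, y'.pt k) ∧ z.t = y'.t ∧ y'.Eq z (uX (ξ s)) (Circle.exp (c s)) := by
  obtain ⟨Θ, V, h0, h1, h2, h3⟩ := exists_img h a mb hk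
  have hg := fun s x => ((Grp76.Pg_iff h _ _).1 ((a s).mem x)).1
  refine ⟨Θ, V, h0, h1, h2, fun s y' => ?_⟩
  obtain ⟨z, hz⟩ := exists_pt h hk (v := Θ (s, y'.pt k))
    (by rw [mem_U, (h3 s y').z]; exact y'.ht) fun j hj => by
      obtain ⟨Θ', -, -, -, -, h4⟩ := exists_img h a mb (hk.trans hj)
      exact ⟨_, ((h4 s y').iC h hk hj).unique h hk (hg s) (h3 s y')⟩
  have h4 := hz ▸ h3 s y'
  have h5 := h4.α
  have h6 := h4.φ
  rw [z.val_α hk] at h5
  rw [z.val_φ hk] at h6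
  have h7 : z.t = y'.t := congrArg Prod.snd h4.z
  exact ⟨z, hz, h7, eq_of_th h ⟨fun x _ => mx_uX (hg s x), cb_of_th h (y := y') (y' := z)
    ((sm_uX (Cb.sm (a s).cb)).of_le (by simp)).contMDiffOn (fun x _ => mx_uX (hg s x))
    fun x _ => h5 x⟩ h7 (fun x _ => h5 x) (fun x _ => h6 x) (congrArg Prod.fst h4.z)⟩

end Crest.Agent.X212.Ker54
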